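import Mathlib

/-! The first time a continuous family of functions reaches a level, and its continuity. -/

open Set Filter Topology

namespace Vale.Agent.P139Z.Shoot

/-- The set of times in `[0, b]` where `f` is at most `c`, together with `b`. -/
def exSet (f : ℝ → ℝ) (c b : ℝ) : Set ℝ := {ρ | ρ ∈ Icc (0 : ℝ) b ∧ f ρ ≤ c} ∪ {b}

/-- The exit time, cut off at `b`. -/
noncomputable def ex (f : ℝ → ℝ) (c b : ℝ) : ℝ := sInf (exSet f c b)

theorem exSet_bdd (f : ℝ → ℝ) (c : ℝ) {b : ℝ} (hb : 0 ≤ b) : BddBelow (exSet f c b) := by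
  refine ⟨0, ?_⟩
  rintro x (hx | hx)
  · exact hx.1.1
  · rw [mem_singleton_iff.mp hx]; exact hb

theorem exSet_nonempty (f : ℝ → ℝ) (c b : ℝ) : (exSet f c b).Nonempty := ⟨b, Or.inr rfl⟩

theorem ex_mem {f : ℝ → ℝ} (hf : Continuous f) (c : ℝ) {b : ℝ} (hb : 0 ≤ b) :
    ex f c b ∈ exSet f c b := by
  refine IsClosed.csInf_mem ?_ (exSet_nonempty f c b) (exSet_bdd f c hb)
  exact (isClosed_Icc.inter (isClosed_le hf continuous_const)).union isClosed_singleton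

theorem ex_le_of {f : ℝ → ℝ} {c b ρ : ℝ} (hρ : ρ ∈ Icc (0 : ℝ) b) (h : f ρ ≤ c) :
    ex f c b ≤ ρ :=
  csInf_le (exSet_bdd f c (hρ.1.trans hρ.2)) (Or.inl ⟨hρ, h⟩)

theorem ex_le (f : ℝ → ℝ) (c : ℝ) {b : ℝ} (hb : 0 ≤ b) : ex f c b ≤ b :=
  csInf_le (exSet_bdd f c hb) (Or.inr rfl)

theorem ex_nonneg (f : ℝ → ℝ) (c : ℝ) {b : ℝ} (hb : 0 ≤ b) : 0 ≤ ex f c b := by
  refine le_csInf (exSet_nonempty f c b) ?_
  rintro x (hx | hx)
  · exact hx.1.1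
  · rw [mem_singleton_iff.mp hx]; exact hb

theorem lt_of_lt_ex {f : ℝ → ℝ} {c b ρ : ℝ} (hb : 0 ≤ b) (h0 : 0 ≤ ρ) (h : ρ < ex f c b) :
    c < f ρ := by
  by_contra hc
  push Not at hc
  exact absurd (ex_le_of ⟨h0, h.le.trans (ex_le f c hb)⟩ hc) (not_le.mpr h)

theorem le_on_ex {f : ℝ → ℝ} (hf : Continuous f) {c b : ℝ} (hb : 0 ≤ b) (h0 : c ≤ f 0) :
    ∀ ρ ∈ Icc (0 : ℝ) (ex f c b), c ≤ f ρ := by
  rcases (ex_nonneg f c hb).eq_or_lt with h | h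
  · intro ρ hρ
    rw [← h] at hρ
    rw [le_antisymm hρ.2 hρ.1]
    exact h0
  · have hcl : IsClosed {ρ : ℝ | c ≤ f ρ} := isClosed_le continuous_const hf
    have hsub : Ico (0 : ℝ) (ex f c b) ⊆ {ρ : ℝ | c ≤ f ρ} := fun ρ hρ =>
      (lt_of_lt_ex hb hρ.1 hρ.2).le
    have := closure_minimal hsub hcl
    rw [closure_Ico h.ne] at this
    exact fun ρ hρ => this hρ

theorem eq_at_ex {f : ℝ → ℝ} (hf : Continuous f) {c b : ℝ} (hb : 0 ≤ b) (h0 : c ≤ f 0)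
    (h : ex f c b < b) : f (ex f c b) = c := by
  rcases ex_mem hf c hb with h' | h'
  · exact le_antisymm h'.2 (le_on_ex hf hb h0 _ ⟨ex_nonneg f c hb, le_rfl⟩)
  · exact absurd (mem_singleton_iff.mp h') h.ne

theorem ex_continuousOn {X : Type*} [TopologicalSpace X] {s : Set X} {n : X → ℝ → ℝ}
    (hn : Continuous (fun p : X × ℝ => n p.1 p.2)) {c b : ℝ} (hb : 0 ≤ b)
    (h0 : ∀ p ∈ s, c ≤ n p 0)
    (htr : ∀ p ∈ s, ∀ T ∈ Icc (0 : ℝ) b, (∀ ρ ∈ Icc (0 : ℝ) T, c ≤ n p ρ) → n p T = c →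
      ∀ d : ℝ, T < d → ∃ ρ ∈ Ioo T d, n p ρ < c) :
    ContinuousOn (fun p => ex (n p) c b) s := by
  intro p hp
  have hp' : Continuous (n p) := hn.comp (Continuous.prodMk_right p)
  refine ContinuousAt.continuousWithinAt ?_
  refine tendsto_order.2 ⟨fun a ha => ?_, fun d hd => ?_⟩
  · obtain ⟨a', haa', ha'⟩ := exists_between ha
    have hK : ∀ ρ ∈ Icc (0 : ℝ) a', ∀ᶠ z : X × ℝ in 𝓝 (p, ρ), c < n z.1 z.2 := by
      intro ρ hρ
      exact hn.continuousAt.eventually (lt_mem_nhds (lt_of_lt_ex hb hρ.1 (hρ.2.trans_lt ha')))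
    filter_upwards [isCompact_Icc.eventually_forall_of_forall_eventually
      (P := fun x ρ => c < n x ρ) hK] with x hx
    refine haa'.trans_le (le_csInf (exSet_nonempty _ c b) ?_)
    rintro ρ (hρ | hρ)
    · by_contra hlt
      push Not at hlt
      exact absurd hρ.2 (not_le.mpr (hx ρ ⟨hρ.1.1, hlt.le⟩))
    · rw [mem_singleton_iff.mp hρ]
      exact ha'.le.trans (ex_le _ c hb)
  · rcases (ex_le (n p) c hb).eq_or_lt with h | h
    · exact Eventually.of_forall fun x => (ex_le _ c hb).trans_lt (h ▸ hd)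
    · obtain ⟨ρ, hρ, hρ'⟩ := htr p hp _ ⟨ex_nonneg _ c hb, h.le⟩ (le_on_ex hp' hb (h0 p hp))
        (eq_at_ex hp' hb (h0 p hp) h) (min d b) (lt_min hd h)
      have hc : Continuous fun x => n x ρ := hn.comp (Continuous.prodMk_left ρ)
      filter_upwards [hc.continuousAt.eventually (gt_mem_nhds hρ')] with x hx
      have h1 : ρ ∈ Icc (0 : ℝ) b :=
        ⟨(ex_nonneg _ c hb).trans hρ.1.le, hρ.2.le.trans (min_le_right _ _)⟩
      exact (ex_le_of h1 hx.le).trans_lt (hρ.2.trans_le (min_le_left _ _))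

/-- A negative derivative of the squared norm gives a later time with smaller norm. -/
theorem exists_norm_lt {G : ℝ → ℂ} {T : ℝ} (hG : DifferentiableAt ℝ G T)
    (h : ((starRingEnd ℂ) (G T) * deriv G T).re < 0) {d : ℝ} (hd : T < d) :
    ∃ ρ ∈ Ioo T d, ‖G ρ‖ < ‖G T‖ := by
  have h1 : HasDerivAt (fun ρ => ‖G ρ‖ ^ 2) (2 * ((starRingEnd ℂ) (G T) * deriv G T).re) T := by
    have := hG.hasDerivAt.norm_sq
    simpa [Complex.inner, mul_comm] using this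
  have h2 := h1.tendsto_slope_zero_right
  have h3 : ∀ᶠ t in 𝓝[>] (0 : ℝ), t⁻¹ • (‖G (T + t)‖ ^ 2 - ‖G T‖ ^ 2) < 0 :=
    h2.eventually (gt_mem_nhds (by linarith))
  have h4 : ∀ᶠ t in 𝓝[>] (0 : ℝ), t ∈ Ioo (0 : ℝ) (d - T) := Ioo_mem_nhdsGT (by linarith)
  obtain ⟨t, ht, ht'⟩ := (h3.and h4).exists
  refine ⟨T + t, ⟨by linarith [ht'.1], by linarith [ht'.2]⟩, ?_⟩
  have h5 : ‖G (T + t)‖ ^ 2 - ‖G T‖ ^ 2 < 0 := by
    rw [smul_eq_mul] at ht
    by_contra hge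
    push Not at hge
    exact absurd ht (not_lt.mpr (mul_nonneg (inv_pos.mpr ht'.1).le hge))
  exact lt_of_pow_lt_pow_left₀ 2 (norm_nonneg _) (by linarith)

end Vale.Agent.P139Z.Shoot
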